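import Mathlib

/-!
# Persistence of nondegenerate zeros of polynomial systems under small coefficient perturbations
-/

set_option autoImplicit false
set_option linter.unusedSectionVars false

open MvPolynomial Filter Topology Set Metric
open scoped BigOperators NNReal

namespace Crest.Agent.Lib.PolarBezout

variable {I : Type*} [Fintype I] [DecidableEq I]

/-- The differential of a polynomial at a point. -/
noncomputable def dP (p : MvPolynomial I ℂ) (z : I → ℂ) : (I → ℂ) →L[ℂ] ℂ :=
  ∑ j, (eval z (pderiv j p)) • (ContinuousLinearMap.proj j : (I → ℂ) →L[ℂ] ℂ)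

lemma dP_apply (p : MvPolynomial I ℂ) (z v : I → ℂ) :
    dP p z v = ∑ j, eval z (pderiv j p) * v j := by
  simp [dP]

lemma eval_pderiv_mul_X (p : MvPolynomial I ℂ) (z : I → ℂ) (i j : I) :
    eval z (pderiv j (p * X i)) = eval z p * (if j = i then 1 else 0) + z i * eval z (pderiv j p) := by
  rw [Derivation.leibniz, pderiv_X]
  simp only [smul_eq_mul, map_add, map_mul, eval_X, Pi.single_apply]
  by_cases h : j = i
  · subst h; simp
  · have h' : i ≠ j := fun e => h e.symm
    simp [h, h']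

lemma hasStrictFDerivAt_eval (p : MvPolynomial I ℂ) (z : I → ℂ) :
    HasStrictFDerivAt (fun w : I → ℂ => eval w p) (dP p z) z := by
  induction p using MvPolynomial.induction_on with
  | C a =>
    have h : dP (C a : MvPolynomial I ℂ) z = 0 := by
      ext v
      simp [dP]
    rw [h]
    simpa using hasStrictFDerivAt_const (𝕜 := ℂ) a z
  | add p q hp hq =>
    have h : dP (p + q) z = dP p z + dP q z := by
      ext v
      simp [dP, add_mul, Finset.sum_add_distrib]
    have hfun : (fun w : I → ℂ => eval w (p + q)) = (fun w => eval w p) + fun w => eval w q := by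
      funext w; simp
    rw [h, hfun]
    exact hp.add hq
  | mul_X p i hp =>
    have h2 : HasStrictFDerivAt (fun w : I → ℂ => w i)
        (ContinuousLinearMap.proj i : (I → ℂ) →L[ℂ] ℂ) z :=
      (ContinuousLinearMap.proj i : (I → ℂ) →L[ℂ] ℂ).hasStrictFDerivAt
    have h3 := hp.mul h2
    have hfun : (fun w : I → ℂ => eval w (p * X i)) = (fun w => eval w p) * fun w => w i := by
      funext w; simp
    have hd : dP (p * X i) z = eval z p • (ContinuousLinearMap.proj i : (I → ℂ) →L[ℂ] ℂ)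
        + z i • dP p z := by
      refine ContinuousLinearMap.ext fun v => ?_
      rw [dP_apply]
      simp only [eval_pderiv_mul_X, add_mul, Finset.sum_add_distrib, ContinuousLinearMap.add_apply,
        ContinuousLinearMap.smul_apply, ContinuousLinearMap.proj_apply, smul_eq_mul, dP_apply]
      congr 1
      · simp [mul_assoc, ← Finset.mul_sum]
      · rw [Finset.mul_sum]
        refine Finset.sum_congr rfl fun j _ => ?_
        ring
    rw [hfun, hd]
    exact h3

/-- The polynomial map attached to a system. -/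
noncomputable def polyMap (Q : I → MvPolynomial I ℂ) (z : I → ℂ) : I → ℂ := fun i => eval z (Q i)

/-- Its differential. -/
noncomputable def dMap (Q : I → MvPolynomial I ℂ) (z : I → ℂ) : (I → ℂ) →L[ℂ] (I → ℂ) :=
  ContinuousLinearMap.pi fun i => dP (Q i) z

lemma dMap_apply (Q : I → MvPolynomial I ℂ) (z v : I → ℂ) (i : I) :
    dMap Q z v i = ∑ j, eval z (pderiv j (Q i)) * v j := by
  simp [dMap, dP_apply]

lemma hasFDerivAt_polyMap (Q : I → MvPolynomial I ℂ) (z : I → ℂ) :
    HasFDerivAt (polyMap Q) (dMap Q z) z := by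
  refine hasFDerivAt_pi.2 fun i => ?_
  exact (hasStrictFDerivAt_eval (Q i) z).hasFDerivAt

/-- entrywise deviation controls the operator norm -/
lemma norm_dMap_sub_le (Q Q' : I → MvPolynomial I ℂ) (z z' : I → ℂ) :
    ‖dMap Q z - dMap Q' z'‖ ≤
      ∑ i, ∑ j, ‖eval z (pderiv j (Q i)) - eval z' (pderiv j (Q' i))‖ := by
  refine ContinuousLinearMap.opNorm_le_bound _
    (Finset.sum_nonneg fun _ _ => Finset.sum_nonneg fun _ _ => norm_nonneg _) fun v => ?_
  refine (pi_norm_le_iff_of_nonneg (mul_nonneg (Finset.sum_nonneg fun _ _ =>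
    Finset.sum_nonneg fun _ _ => norm_nonneg _) (norm_nonneg _))).2 fun i => ?_
  have h1 : (dMap Q z - dMap Q' z') v i =
      ∑ j, (eval z (pderiv j (Q i)) - eval z' (pderiv j (Q' i))) * v j := by
    simp only [ContinuousLinearMap.sub_apply, Pi.sub_apply, dMap_apply, sub_mul,
      Finset.sum_sub_distrib]
  rw [h1]
  calc ‖∑ j, (eval z (pderiv j (Q i)) - eval z' (pderiv j (Q' i))) * v j‖
      ≤ ∑ j, ‖(eval z (pderiv j (Q i)) - eval z' (pderiv j (Q' i))) * v j‖ := norm_sum_le _ _
    _ ≤ ∑ j, ‖eval z (pderiv j (Q i)) - eval z' (pderiv j (Q' i))‖ * ‖v‖ := by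
        refine Finset.sum_le_sum fun j _ => ?_
        rw [norm_mul]
        exact mul_le_mul_of_nonneg_left (norm_le_pi_norm v j) (norm_nonneg _)
    _ = (∑ j, ‖eval z (pderiv j (Q i)) - eval z' (pderiv j (Q' i))‖) * ‖v‖ := by
        rw [Finset.sum_mul]
    _ ≤ _ := by
        refine mul_le_mul_of_nonneg_right ?_ (norm_nonneg _)
        exact Finset.single_le_sum (f := fun i => ∑ j, ‖eval z (pderiv j (Q i)) - eval z' (pderiv j (Q' i))‖)
          (fun _ _ => Finset.sum_nonneg fun _ _ => norm_nonneg _) (Finset.mem_univ i)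

/-- expansion of a linear functional on polynomials with support in `S`. -/
lemma linear_expand (Λ : MvPolynomial I ℂ →ₗ[ℂ] ℂ) (S : Finset (I →₀ ℕ)) (q : MvPolynomial I ℂ)
    (hq : q.support ⊆ S) : Λ q = ∑ s ∈ S, coeff s q * Λ (monomial s 1) := by
  classical
  have h1 : q = ∑ s ∈ S, monomial s (coeff s q) := by
    conv_lhs => rw [q.as_sum]
    refine Finset.sum_subset hq fun s _ hs => ?_
    have : coeff s q = 0 := by simpa using hs
    simp [this]
  conv_lhs => rw [h1]
  rw [map_sum]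
  refine Finset.sum_congr rfl fun s _ => ?_
  have : monomial s (coeff s q) = coeff s q • monomial s (1 : ℂ) := by
    rw [smul_monomial]; simp
  rw [this, map_smul, smul_eq_mul]

/-- evaluation as a linear functional -/
noncomputable def evL (z : I → ℂ) : MvPolynomial I ℂ →ₗ[ℂ] ℂ where
  toFun := fun p => eval z p
  map_add' := by intro p q; simp
  map_smul' := by intro c p; simp [smul_eval]

@[simp] lemma evL_apply (z : I → ℂ) (p : MvPolynomial I ℂ) : evL z p = eval z p := rfl

/-- evaluation of a partial derivative as a linear functional -/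
noncomputable def evD (z : I → ℂ) (j : I) : MvPolynomial I ℂ →ₗ[ℂ] ℂ :=
  (evL z).comp (pderiv j : Derivation ℂ (MvPolynomial I ℂ) (MvPolynomial I ℂ)).toLinearMap

@[simp] lemma evD_apply (z : I → ℂ) (j : I) (p : MvPolynomial I ℂ) :
    evD z j p = eval z (pderiv j p) := rfl

/-- difference of a functional on two polynomials with common support bound. -/
lemma linear_sub_bound (Λ : MvPolynomial I ℂ →ₗ[ℂ] ℂ) (S : Finset (I →₀ ℕ))
    (q q' : MvPolynomial I ℂ) (hq : q.support ⊆ S) (hq' : q'.support ⊆ S) {C : ℝ}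
    (hC : ∀ s ∈ S, ‖Λ (monomial s 1)‖ ≤ C) :
    ‖Λ q - Λ q'‖ ≤ (∑ s ∈ S, ‖coeff s q - coeff s q'‖) * C := by
  rw [linear_expand Λ S q hq, linear_expand Λ S q' hq', ← Finset.sum_sub_distrib, Finset.sum_mul]
  refine (norm_sum_le _ _).trans (Finset.sum_le_sum fun s hs => ?_)
  rw [← sub_mul, norm_mul]
  exact mul_le_mul_of_nonneg_left (hC s hs) (norm_nonneg _)

/-- **Persistence of nondegenerate zeros.** -/
theorem persist (Q : I → MvPolynomial I ℂ) (Qk : ℕ → I → MvPolynomial I ℂ)
    (S : Finset (I →₀ ℕ)) (hQ : ∀ i, (Q i).support ⊆ S) (hQk : ∀ k i, (Qk k i).support ⊆ S)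
    (hconv : ∀ i s, Tendsto (fun k => coeff s (Qk k i)) atTop (𝓝 (coeff s (Q i))))
    (p : I → ℂ) (hp : ∀ i, eval p (Q i) = 0)
    (hJ : ∀ v : I → ℂ, (∀ i, ∑ j, eval p (pderiv j (Q i)) * v j = 0) → v = 0)
    (ε : ℝ) (hε : 0 < ε) :
    ∀ᶠ k in atTop, ∃ pk : I → ℂ, dist pk p < ε ∧ (∀ i, eval pk (Qk k i) = 0) ∧
      ∀ v : I → ℂ, (∀ i, ∑ j, eval pk (pderiv j (Qk k i)) * v j = 0) → v = 0 := by
  classical
  rcases isEmpty_or_nonempty I with hI | hI
  · refine Eventually.of_forall fun k => ⟨p, by simpa using hε, fun i => (hI.false i).elim,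
      fun v _ => Subsingleton.elim _ _⟩
  -- the linearisation at p
  let L := dMap Q p
  have hLinj : Function.Injective (L : (I → ℂ) →ₗ[ℂ] (I → ℂ)) := by
    rw [← LinearMap.ker_eq_bot, LinearMap.ker_eq_bot']
    intro v hv
    refine hJ v fun i => ?_
    have := congrFun hv i
    simpa [L, dMap_apply] using this
  let eL := LinearEquiv.ofInjectiveEndo (L : (I → ℂ) →ₗ[ℂ] (I → ℂ)) hLinj
  let A : (I → ℂ) ≃L[ℂ] (I → ℂ) := eL.toContinuousLinearEquiv
  have hA : ∀ v, A v = L v := fun v => rfl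
  have hAcoe : (A : (I → ℂ) →L[ℂ] (I → ℂ)) = L := ContinuousLinearMap.ext hA
  have hN : 0 < ‖(A.symm : (I → ℂ) →L[ℂ] (I → ℂ))‖ := by
    refine norm_pos_iff.2 fun h0 => ?_
    obtain ⟨i0⟩ := hI
    have h1 : (A.symm : (I → ℂ) →L[ℂ] (I → ℂ)) (A (Pi.single i0 1)) = 0 := by rw [h0]; rfl
    have h2 : A.symm (A (Pi.single i0 1)) = 0 := h1
    rw [A.symm_apply_apply] at h2
    have := congrFun h2 i0
    simp at this
  set N := ‖(A.symm : (I → ℂ) →L[ℂ] (I → ℂ))‖ with hNdef
  let c : ℝ := N⁻¹ / 2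
  have hc : 0 < c := by positivity
  -- radius
  have hcont : Continuous fun z : I → ℂ =>
      ∑ i, ∑ j, ‖eval z (pderiv j (Q i)) - eval p (pderiv j (Q i))‖ := by
    refine continuous_finset_sum _ fun i _ => continuous_finset_sum _ fun j _ => ?_
    exact ((MvPolynomial.continuous_eval _).sub continuous_const).norm
  have hat : Tendsto (fun z : I → ℂ =>
      ∑ i, ∑ j, ‖eval z (pderiv j (Q i)) - eval p (pderiv j (Q i))‖) (𝓝 p) (𝓝 0) := by
    have := hcont.tendsto p
    simpa using this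
  have hev := (tendsto_order.1 hat).2 (c / 2) (by positivity)
  obtain ⟨δ, hδ, hball⟩ := Metric.eventually_nhds_iff_ball.1 hev
  let r : ℝ := min (δ / 2) (ε / 2)
  have hr : 0 < r := lt_min (by positivity) (by positivity)
  have hrδ : r < δ := lt_of_le_of_lt (min_le_left _ _) (by linarith)
  have hrε : r < ε := lt_of_le_of_lt (min_le_right _ _) (by linarith)
  have hnear : ∀ z ∈ closedBall p r, ‖dMap Q z - L‖ ≤ c / 2 := by
    intro z hz
    have hz' : z ∈ ball p δ := Metric.mem_ball.2 (lt_of_le_of_lt (Metric.mem_closedBall.1 hz) hrδ)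
    exact (norm_dMap_sub_le Q Q z p).trans (le_of_lt (hball z hz'))
  -- uniform bound of the monomial derivatives on the ball
  have hcpt : IsCompact (closedBall p r) := isCompact_closedBall p r
  have hG : Continuous fun z : I → ℂ =>
      ∑ s ∈ S, ∑ j, ‖eval z (pderiv j (monomial s (1 : ℂ)))‖ := by
    refine continuous_finset_sum _ fun s _ => continuous_finset_sum _ fun j _ => ?_
    exact (MvPolynomial.continuous_eval _).norm
  obtain ⟨Cb, hCb⟩ := hcpt.exists_bound_of_continuousOn hG.continuousOn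
  have hCb' : ∀ z ∈ closedBall p r, ∀ s ∈ S, ∀ j, ‖eval z (pderiv j (monomial s (1 : ℂ)))‖ ≤ Cb := by
    intro z hz s hs j
    have h1 := hCb z hz
    rw [Real.norm_of_nonneg (Finset.sum_nonneg fun _ _ => Finset.sum_nonneg fun _ _ => norm_nonneg _)]
      at h1
    refine le_trans ?_ h1
    refine le_trans ?_ (Finset.single_le_sum (f := fun s =>
      ∑ j, ‖eval z (pderiv j (monomial s (1 : ℂ)))‖)
      (fun _ _ => Finset.sum_nonneg fun _ _ => norm_nonneg _) hs)
    exact Finset.single_le_sum (f := fun j => ‖eval z (pderiv j (monomial s (1 : ℂ)))‖)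
      (fun _ _ => norm_nonneg _) (Finset.mem_univ j)
  have hCb0 : 0 ≤ max Cb 0 := le_max_right _ _
  let Cb1 := max Cb 0
  let Cp : ℝ := ∑ s ∈ S, ‖eval p (monomial s (1 : ℂ))‖
  have hCp : ∀ s ∈ S, ‖evL p (monomial s (1 : ℂ))‖ ≤ Cp := by
    intro s hs
    exact Finset.single_le_sum (f := fun s => ‖eval p (monomial s (1 : ℂ))‖)
      (fun _ _ => norm_nonneg _) hs
  have hCp0 : 0 ≤ Cp := Finset.sum_nonneg fun _ _ => norm_nonneg _
  -- coefficient deviation
  let dev : ℕ → ℝ := fun k => ∑ i, ∑ s ∈ S, ‖coeff s (Qk k i) - coeff s (Q i)‖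
  have hdev : Tendsto dev atTop (𝓝 0) := by
    have : Tendsto dev atTop (𝓝 (∑ i : I, ∑ s ∈ S, ‖coeff s (Q i) - coeff s (Q i)‖)) := by
      refine tendsto_finset_sum _ fun i _ => tendsto_finset_sum _ fun s _ => ?_
      exact ((hconv i s).sub tendsto_const_nhds).norm
    simpa using this
  have hdev0 : ∀ k, 0 ≤ dev k := fun k =>
    Finset.sum_nonneg fun _ _ => Finset.sum_nonneg fun _ _ => norm_nonneg _
  have hdevi : ∀ k i, ∑ s ∈ S, ‖coeff s (Qk k i) - coeff s (Q i)‖ ≤ dev k := fun k i =>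
    Finset.single_le_sum (f := fun i => ∑ s ∈ S, ‖coeff s (Qk k i) - coeff s (Q i)‖)
      (fun _ _ => Finset.sum_nonneg fun _ _ => norm_nonneg _) (Finset.mem_univ i)
  -- the two smallness requirements
  have hsmall1 : ∀ᶠ k in atTop, (Fintype.card I : ℝ) * Cb1 * dev k < c / 2 := by
    have : Tendsto (fun k => (Fintype.card I : ℝ) * Cb1 * dev k) atTop (𝓝 0) := by
      simpa using hdev.const_mul ((Fintype.card I : ℝ) * Cb1)
    exact (tendsto_order.1 this).2 _ (by positivity)
  have hsmall2 : ∀ᶠ k in atTop, Cp * dev k < c * r := by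
    have : Tendsto (fun k => Cp * dev k) atTop (𝓝 0) := by
      simpa using hdev.const_mul Cp
    exact (tendsto_order.1 this).2 _ (by positivity)
  filter_upwards [hsmall1, hsmall2] with k hk1 hk2
  -- derivative of the perturbed map is close on the ball
  have hclose : ∀ z ∈ closedBall p r, ‖dMap (Qk k) z - L‖ ≤ c := by
    intro z hz
    have h1 : ‖dMap (Qk k) z - dMap Q z‖ ≤ (Fintype.card I : ℝ) * Cb1 * dev k := by
      refine (norm_dMap_sub_le (Qk k) Q z z).trans ?_
      calc ∑ i, ∑ j, ‖eval z (pderiv j (Qk k i)) - eval z (pderiv j (Q i))‖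
          ≤ ∑ i, ∑ _j : I, (∑ s ∈ S, ‖coeff s (Qk k i) - coeff s (Q i)‖) * Cb1 := by
            refine Finset.sum_le_sum fun i _ => Finset.sum_le_sum fun j _ => ?_
            exact linear_sub_bound (evD z j) S _ _ (hQk k i) (hQ i) (fun s hs =>
              (hCb' z hz s hs j).trans (le_max_left _ _))
        _ = (Fintype.card I : ℝ) * Cb1 * ∑ i, ∑ s ∈ S, ‖coeff s (Qk k i) - coeff s (Q i)‖ := by
            simp only [Finset.sum_const, Finset.card_univ, nsmul_eq_mul]
            rw [Finset.mul_sum]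
            refine Finset.sum_congr rfl fun i _ => ?_
            ring
    have h2 := hnear z hz
    calc ‖dMap (Qk k) z - L‖ = ‖(dMap (Qk k) z - dMap Q z) + (dMap Q z - L)‖ := by
          congr 1; abel
      _ ≤ ‖dMap (Qk k) z - dMap Q z‖ + ‖dMap Q z - L‖ := norm_add_le _ _
      _ ≤ c := by linarith
  let c' : ℝ≥0 := ⟨c, hc.le⟩
  have happrox : ApproximatesLinearOn (polyMap (Qk k)) (A : (I → ℂ) →L[ℂ] (I → ℂ))
      (closedBall p r) c' := by
    intro x hx y hy
    have := (convex_closedBall p r).norm_image_sub_le_of_norm_hasFDerivWithin_le'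
      (f := polyMap (Qk k)) (f' := fun z => dMap (Qk k) z) (φ := L) (C := c)
      (fun z _ => (hasFDerivAt_polyMap (Qk k) z).hasFDerivWithinAt) hclose hy hx
    rw [hAcoe]
    exact this
  have hsurj := happrox.surjOn_closedBall_of_nonlinearRightInverse A.toNonlinearRightInverse
      hr.le subset_rfl
  have hval : (((A.toNonlinearRightInverse.nnnorm : ℝ≥0) : ℝ)⁻¹ - (c' : ℝ)) * r = c * r := by
    show (N⁻¹ - c) * r = c * r
    have : N⁻¹ - c = c := by simp only [c]; ring
    rw [this]
  have hFp : ‖polyMap (Qk k) p‖ ≤ c * r := by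
    refine (pi_norm_le_iff_of_nonneg (by positivity)).2 fun i => ?_
    have h1 : eval p (Q i) = evL p (Q i) := rfl
    have h2 : polyMap (Qk k) p i = evL p (Qk k i) - evL p (Q i) := by
      rw [← h1, hp i, sub_zero]; rfl
    rw [h2]
    refine (linear_sub_bound (evL p) S _ _ (hQk k i) (hQ i) hCp).trans ?_
    calc (∑ s ∈ S, ‖coeff s (Qk k i) - coeff s (Q i)‖) * Cp ≤ dev k * Cp :=
          mul_le_mul_of_nonneg_right (hdevi k i) hCp0
      _ = Cp * dev k := mul_comm _ _
      _ ≤ c * r := hk2.le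
  have h0mem : (0 : I → ℂ) ∈ closedBall (polyMap (Qk k) p)
      ((((A.toNonlinearRightInverse.nnnorm : ℝ≥0) : ℝ)⁻¹ - (c' : ℝ)) * r) := by
    rw [hval, Metric.mem_closedBall, dist_comm, dist_zero_right]
    exact hFp
  obtain ⟨pk, hpk, hpk0⟩ := hsurj h0mem
  refine ⟨pk, lt_of_le_of_lt (Metric.mem_closedBall.1 hpk) hrε, fun i => ?_, fun v hv => ?_⟩
  · exact congrFun hpk0 i
  · -- injectivity at pk
    have hD0 : dMap (Qk k) pk v = 0 := by
      funext i
      rw [dMap_apply]
      exact hv i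
    have h1 : ‖L v‖ ≤ c * ‖v‖ := by
      have h2 : L v = (L - dMap (Qk k) pk) v := by
        simp [hD0]
      rw [h2]
      refine (ContinuousLinearMap.le_opNorm _ _).trans ?_
      refine mul_le_mul_of_nonneg_right ?_ (norm_nonneg _)
      rw [norm_sub_rev]
      exact hclose pk hpk
    have h3 : ‖v‖ ≤ N * ‖L v‖ := by
      have : v = (A.symm : (I → ℂ) →L[ℂ] (I → ℂ)) (L v) := by
        rw [← hA]; exact (A.symm_apply_apply v).symm
      conv_lhs => rw [this]
      exact ContinuousLinearMap.le_opNorm _ _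
    have h4 : N * (c * ‖v‖) = ‖v‖ / 2 := by
      simp only [c]; field_simp
    have h5 : ‖v‖ ≤ ‖v‖ / 2 := by
      calc ‖v‖ ≤ N * ‖L v‖ := h3
        _ ≤ N * (c * ‖v‖) := mul_le_mul_of_nonneg_left h1 hN.le
        _ = ‖v‖ / 2 := h4
    have h6 : ‖v‖ = 0 := by
      have := norm_nonneg v
      linarith
    exact norm_eq_zero.1 h6

end Crest.Agent.Lib.PolarBezout
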