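import Crest.Agent.Lib.PolarBezout.Leaves
import Crest.Agent.Lib.PolarBezout.Persist

/-!
# Elementary multi-homogeneous Bezout bound for nondegenerate solutions of bilinear systems
-/

set_option autoImplicit false
set_option linter.unusedSectionVars false

open MvPolynomial Filter Topology
open scoped BigOperators

namespace Crest.Agent.Lib.PolarBezout

/-- Rank is lower semicontinuous along a line. -/
lemma rank_semicont {V W : Type*} [AddCommGroup V] [Module ℂ V] [FiniteDimensional ℂ V]
    [AddCommGroup W] [Module ℂ W] (a b : V →ₗ[ℂ] W) :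
    ∃ T : Finset ℂ, ∀ t, t ∉ T →
      Module.finrank ℂ (LinearMap.range b) ≤ Module.finrank ℂ (LinearMap.range (a + t • (b - a))) := by
  classical
  let r := Module.finrank ℂ (LinearMap.range b)
  let eb := Module.finBasis ℂ (LinearMap.range b)
  have hv : ∀ x : Fin r, ∃ v : V, b v = (eb x : W) := fun x => (eb x).2
  choose v hv using hv
  have hφ : ∀ x : Fin r, ∃ φ : W →ₗ[ℂ] ℂ, φ.comp (LinearMap.range b).subtype = eb.coord x :=
    fun x => LinearMap.exists_extend (eb.coord x)
  choose φ hφ using hφ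
  let A : Matrix (Fin r) (Fin r) ℂ := fun x y => φ x (a (v y))
  have hB : ∀ x y : Fin r, φ x (b (v y)) = if x = y then 1 else 0 := by
    intro x y
    rw [hv y]
    have h1 := LinearMap.congr_fun (hφ x) (eb y)
    simp only [LinearMap.comp_apply, Submodule.subtype_apply] at h1
    rw [h1, Module.Basis.coord_apply, Module.Basis.repr_self, Finsupp.single_apply]
    by_cases h : y = x
    · simp [h]
    · have h' : x ≠ y := fun e => h e.symm
      simp [h, h']
  let B : Matrix (Fin r) (Fin r) ℂ := 1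
  let PM : Matrix (Fin r) (Fin r) (Polynomial ℂ) :=
    fun x y => Polynomial.C (A x y) + Polynomial.X * Polynomial.C (B x y - A x y)
  have hPeval : ∀ t : ℂ, (PM.det).eval t = (A + t • (B - A)).det := by
    intro t
    have := RingHom.map_det (Polynomial.evalRingHom t) PM
    simp only [Polynomial.coe_evalRingHom] at this
    rw [this]
    congr 1
    ext x y
    show Polynomial.evalRingHom t (PM x y) = A x y + t * (B x y - A x y)
    simp [PM]
  have hP1 : (PM.det).eval 1 = 1 := by
    rw [hPeval]; simp [B]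
  have hP0 : PM.det ≠ 0 := by
    intro h; rw [h] at hP1; simp at hP1
  refine ⟨PM.det.roots.toFinset, fun t ht => ?_⟩
  have hdet : (A + t • (B - A)).det ≠ 0 := by
    rw [← hPeval]
    intro h0
    apply ht
    rw [Multiset.mem_toFinset, Polynomial.mem_roots hP0]
    exact h0
  let a' := a + t • (b - a)
  have hli : LinearIndependent ℂ (fun y : Fin r => a' (v y)) := by
    rw [Fintype.linearIndependent_iff]
    intro c hc
    have hmv : (A + t • (B - A)).mulVec c = 0 := by
      funext x
      have h1 := congrArg (φ x) hc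
      rw [map_sum, map_zero] at h1
      rw [Matrix.mulVec, dotProduct]
      simp only [Pi.zero_apply]
      rw [← h1]
      refine Finset.sum_congr rfl fun y _ => ?_
      have e1 : φ x (a' (v y)) = A x y + t * (B x y - A x y) := by
        simp only [a', LinearMap.add_apply, LinearMap.smul_apply, LinearMap.sub_apply, map_add,
          map_smul, map_sub, hB, smul_eq_mul]
        show _ = φ x (a (v y)) + t * ((1 : Matrix (Fin r) (Fin r) ℂ) x y - φ x (a (v y)))
        rw [Matrix.one_apply]
      have e2 : (A + t • (B - A)) x y = A x y + t * (B x y - A x y) := rfl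
      rw [e2, map_smul, smul_eq_mul, e1]
      ring
    have hc0 := Matrix.eq_zero_of_mulVec_eq_zero hdet hmv
    intro y
    exact congrFun hc0 y
  have h1 := finrank_span_eq_card hli
  have h2 : Submodule.span ℂ (Set.range fun y : Fin r => a' (v y)) ≤ LinearMap.range a' := by
    rw [Submodule.span_le]
    rintro _ ⟨y, rfl⟩
    exact ⟨v y, rfl⟩
  have h3 := Submodule.finrank_mono h2
  rw [h1] at h3
  simpa [r] using h3

variable {I B J : Type*} [Fintype I] [DecidableEq I] [Fintype B] [DecidableEq B]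
  [Fintype J] [DecidableEq J]

/-- The multiplication map of a family of generators. -/
noncomputable def mulMap (β : I → B) (F : J → MvPolynomial I ℂ) (Dj : J → B → ℕ) :
    (∀ j, ↥(R β (Dj j))) →ₗ[ℂ] MvPolynomial I ℂ :=
  ∑ j, (LinearMap.mulLeft ℂ (F j)).comp ((R β (Dj j)).subtype.comp (LinearMap.proj j))

lemma mulMap_apply (β : I → B) (F : J → MvPolynomial I ℂ) (Dj : J → B → ℕ)
    (h : ∀ j, ↥(R β (Dj j))) : mulMap β F Dj h = ∑ j, F j * (h j : MvPolynomial I ℂ) := by
  simp [mulMap, LinearMap.sum_apply]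

lemma mulMap_line (β : I → B) (F G : J → MvPolynomial I ℂ) (Dj : J → B → ℕ) (t : ℂ) :
    mulMap β (fun j => (1 - t) • F j + t • G j) Dj =
      mulMap β F Dj + t • (mulMap β G Dj - mulMap β F Dj) := by
  refine LinearMap.ext fun h => ?_
  simp only [mulMap_apply, LinearMap.add_apply, LinearMap.smul_apply, LinearMap.sub_apply]
  rw [← Finset.sum_sub_distrib, Finset.smul_sum, ← Finset.sum_add_distrib]
  refine Finset.sum_congr rfl fun j _ => ?_
  rw [add_mul, smul_mul_assoc, smul_mul_assoc]
  module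

lemma Idl_le_range (β : I → B) (F : J → MvPolynomial I ℂ) (e Dj : J → B → ℕ) (D : B → ℕ)
    (hD : ∀ j, Dj j + e j = D) :
    Idl β (fun j => (F j, e j)) D ≤ LinearMap.range (mulMap β F Dj) := by
  classical
  refine Submodule.span_le.2 ?_
  rintro _ ⟨j, D', h, hh, hD', rfl⟩
  simp only at hD' ⊢
  have hD'' : D' = Dj j := by
    have : D' + e j = Dj j + e j := by rw [hD', hD]
    exact add_right_cancel this
  subst hD''
  refine ⟨fun j' => if hj : j' = j then (hj ▸ ⟨h, hh⟩ : ↥(R β (Dj j'))) else 0, ?_⟩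
  rw [mulMap_apply, Finset.sum_eq_single j]
  · simp
  · intro j' _ hj'
    simp [hj']
  · simp

lemma range_mulMap_le (β : I → B) (F : J → MvPolynomial I ℂ) (e Dj : J → B → ℕ) (D : B → ℕ)
    (hF : ∀ j, F j ∈ R β (e j)) (hD : ∀ j, Dj j + e j = D) :
    LinearMap.range (mulMap β F Dj) ≤ R β D := by
  rintro _ ⟨h, rfl⟩
  rw [mulMap_apply]
  refine Submodule.sum_mem _ fun j _ => ?_
  have := mul_mem_R (hF j) (h j).2
  rwa [add_comm, hD j] at this

/-- Interpolation at normalised points. -/
lemma exists_interp (β : I → B) (α : B → MvPolynomial I ℂ) (hα : ∀ b, α b ∈ R β (Pi.single b 1))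
    (p : I → ℂ) (hp : ∀ b, eval p (α b) = 1) (Q : Finset (I → ℂ)) (hQ : ∀ q ∈ Q, ∀ b, eval q (α b) = 1)
    (hpQ : p ∉ Q) :
    ∀ D : B → ℕ, (∀ b, Q.card ≤ D b) →
      ∃ g ∈ R β D, eval p g ≠ 0 ∧ ∀ q ∈ Q, eval q g = 0 := by
  classical
  induction Q using Finset.induction_on with
  | empty =>
    intro D _
    refine ⟨prodE α D, prodE_mem_R hα D, ?_, by simp⟩
    simp [prodE, hp]
  | insert q Q' hq ih =>
    intro D hD
    have hcard : (insert q Q').card = Q'.card + 1 := Finset.card_insert_of_notMem hq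
    have hqp : q ≠ p := fun h => hpQ (h ▸ Finset.mem_insert_self _ _)
    obtain ⟨i, hi⟩ : ∃ i, p i ≠ q i := by
      by_contra hcon
      push Not at hcon
      exact hqp (funext fun i => (hcon i).symm)
    let ℓ : MvPolynomial I ℂ := X i - C (q i) * α (β i)
    have hℓ : ℓ ∈ R β (Pi.single (β i) 1) := by
      refine Submodule.sub_mem _ (X_mem_R β i) ?_
      rw [C_mul']
      exact Submodule.smul_mem _ _ (hα _)
    let D' : B → ℕ := fun b => D b - (Pi.single (β i) 1 : B → ℕ) b
    have hD1 : ∀ b, 1 ≤ D b := fun b => by have := hD b; omega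
    have hDD' : (Pi.single (β i) 1 : B → ℕ) + D' = D := by
      funext b
      have h2 : (Pi.single (β i) 1 : B → ℕ) b ≤ 1 := by
        simp only [Pi.single_apply]; split_ifs <;> omega
      have := hD1 b
      simp only [Pi.add_apply, D']
      omega
    have hD2 : ∀ b, Q'.card ≤ D' b := fun b => by
      have h1 := hD b
      have h2 : (Pi.single (β i) 1 : B → ℕ) b ≤ 1 := by
        simp only [Pi.single_apply]; split_ifs <;> omega
      simp only [D']
      omega
    obtain ⟨g, hg, hgp, hgq⟩ := ih (fun q' hq' => hQ q' (Finset.mem_insert_of_mem hq'))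
      (fun h => hpQ (Finset.mem_insert_of_mem h)) D' hD2
    refine ⟨ℓ * g, ?_, ?_, ?_⟩
    · have := mul_mem_R hℓ hg
      rwa [hDD'] at this
    · rw [map_mul]
      refine mul_ne_zero ?_ hgp
      simp only [ℓ, map_sub, eval_X, map_mul, eval_C, hp, mul_one]
      exact sub_ne_zero.2 hi
    · intro q' hq'
      rw [map_mul]
      rcases Finset.mem_insert.1 hq' with rfl | hq''
      · have : eval q' ℓ = 0 := by
          simp only [ℓ, map_sub, eval_X, map_mul, eval_C]
          rw [hQ q' (Finset.mem_insert_self _ _), mul_one, sub_self]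
        rw [this, zero_mul]
      · rw [hgq q' hq'', mul_zero]

/-- Points impose independent conditions. -/
lemma card_add_finrank_le (β : I → B) (F : J → MvPolynomial I ℂ) (e Dj : J → B → ℕ) (D : B → ℕ)
    (hF : ∀ j, F j ∈ R β (e j)) (hD : ∀ j, Dj j + e j = D)
    (α : B → MvPolynomial I ℂ) (hα : ∀ b, α b ∈ R β (Pi.single b 1)) (P : Finset (I → ℂ))
    (hP0 : ∀ p ∈ P, ∀ j, eval p (F j) = 0) (hP1 : ∀ p ∈ P, ∀ b, eval p (α b) = 1)
    (hDP : ∀ b, P.card ≤ D b) :
    P.card + Module.finrank ℂ (LinearMap.range (mulMap β F Dj)) ≤ Module.finrank ℂ (R β D) := by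
  classical
  -- the evaluation map
  let ev : ↥(R β D) →ₗ[ℂ] (↥P → ℂ) :=
    LinearMap.pi fun p => (evL (p : I → ℂ)).comp (R β D).subtype
  have hev : ∀ (h : ↥(R β D)) (p : ↥P), ev h p = eval (p : I → ℂ) (h : MvPolynomial I ℂ) := fun _ _ => rfl
  have hg : ∀ p : ↥P, ∃ g ∈ R β D, eval (p : I → ℂ) g ≠ 0 ∧ ∀ q ∈ P.erase (p : I → ℂ), eval q g = 0 := by
    intro p
    refine exists_interp β α hα p (hP1 p p.2) (P.erase p) (fun q hq => hP1 q (Finset.mem_of_mem_erase hq))
      (Finset.notMem_erase _ _) D (fun b => (Finset.card_le_card (Finset.erase_subset _ _)).trans (hDP b))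
  choose g hgR hgp hgq using hg
  have hsurj : Function.Surjective ev := by
    intro y
    refine ⟨∑ p : ↥P, (y p / eval (p : I → ℂ) (g p)) • ⟨g p, hgR p⟩, ?_⟩
    funext q
    rw [map_sum, Finset.sum_apply, Finset.sum_eq_single q]
    · rw [map_smul, Pi.smul_apply, hev, smul_eq_mul]
      show y q / eval (q : I → ℂ) (g q) * eval (q : I → ℂ) (g q) = y q
      field_simp [hgp q]
    · intro p _ hpq
      rw [map_smul, Pi.smul_apply, hev, smul_eq_mul]
      have : eval (q : I → ℂ) (g p) = 0 := hgq p q (Finset.mem_erase.2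
        ⟨fun h => hpq (Subtype.ext h.symm), q.2⟩)
      show y p / eval (p : I → ℂ) (g p) * eval (q : I → ℂ) (g p) = 0
      rw [this, mul_zero]
    · simp
  have hrange : LinearMap.range ev = ⊤ := LinearMap.range_eq_top.2 hsurj
  have hrn := LinearMap.finrank_range_add_finrank_ker ev
  rw [hrange, finrank_top] at hrn
  have hcardP : Module.finrank ℂ (↥P → ℂ) = P.card := by
    simp
  rw [hcardP] at hrn
  rw [← hrn]
  refine Nat.add_le_add_left ?_ _
  -- the ideal part lies in the kernel
  let K : Submodule ℂ (MvPolynomial I ℂ) := (LinearMap.ker ev).map (R β D).subtype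
  have hK : Module.finrank ℂ K = Module.finrank ℂ (LinearMap.ker ev) :=
    LinearEquiv.finrank_eq (Submodule.equivMapOfInjective _ (Submodule.injective_subtype _) _).symm
  rw [← hK]
  refine Submodule.finrank_mono ?_
  intro r hr
  have hrR := range_mulMap_le β F e Dj D hF hD hr
  refine ⟨⟨r, hrR⟩, ?_, rfl⟩
  rw [SetLike.mem_coe, LinearMap.mem_ker]
  funext p
  obtain ⟨h, rfl⟩ := hr
  rw [hev]
  simp only [mulMap_apply, map_sum, map_mul, hP0 _ p.2, zero_mul, Finset.sum_const_zero]
  rfl

/-- A finite set of positive reals has a positive lower bound. -/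
lemma exists_pos_le (T : Finset ℝ) (hT : ∀ x ∈ T, 0 < x) : ∃ ε : ℝ, 0 < ε ∧ ∀ x ∈ T, ε ≤ x := by
  classical
  induction T using Finset.induction_on with
  | empty => exact ⟨1, one_pos, by simp⟩
  | insert a T' _ ih =>
    obtain ⟨ε, hε, h⟩ := ih fun x hx => hT x (Finset.mem_insert_of_mem hx)
    refine ⟨min ε a, lt_min hε (hT a (Finset.mem_insert_self _ _)), fun x hx => ?_⟩
    rcases Finset.mem_insert.1 hx with rfl | hx'
    · exact min_le_right _ _
    · exact (min_le_left _ _).trans (h x hx')

/-- Product system: the codimension bound in terms of the rank of its multiplication map. -/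
lemma finrank_R_le_product (β : I → B) (b1 b2 : J → B) (s : J → ℂ) (hs : Function.Injective s)
    (hb : ∀ j, b1 j ≠ b2 j) (hsq : Fintype.card J + Fintype.card B = Fintype.card I)
    (D : B → ℕ) (Dj : J → B → ℕ)
    (hDj : ∀ j, Dj j + ((Pi.single (b1 j) 1 : B → ℕ) + Pi.single (b2 j) 1) = D)
    (hD : ∀ b, Fintype.card J + 1 ≤ D b) :
    Module.finrank ℂ (R β D) ≤
      Module.finrank ℂ (LinearMap.range (mulMap β
        (fun j => form β (b1 j) (s j) * form β (b2 j) (s j)) Dj)) + leafCount β b1 b2 Finset.univ b1 := by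
  classical
  have h := codim_gen β b1 b2 s hs hb hsq Finset.univ b1 D (by simpa using hD)
  obtain ⟨W, hW, hWr, hsub⟩ := h
  have hgen : gen β b1 b2 s Finset.univ b1 = fun j =>
      (form β (b1 j) (s j) * form β (b2 j) (s j),
        (Pi.single (b1 j) 1 : B → ℕ) + Pi.single (b2 j) 1) := by
    funext j
    simp [gen]
  rw [hgen] at hsub
  have hle := Idl_le_range β (fun j => form β (b1 j) (s j) * form β (b2 j) (s j))
    (fun j => (Pi.single (b1 j) 1 : B → ℕ) + Pi.single (b2 j) 1) Dj D hDj
  have hsub2 := hsub.trans (sup_le_sup_right hle W)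
  calc Module.finrank ℂ (R β D) ≤ Module.finrank ℂ ↥(LinearMap.range (mulMap β
        (fun j => form β (b1 j) (s j) * form β (b2 j) (s j)) Dj) ⊔ W) := Submodule.finrank_mono hsub2
    _ ≤ _ := Submodule.finrank_add_le_finrank_add_finrank _ _
    _ ≤ _ := Nat.add_le_add_left hWr _

/-- **Elementary Bezout bound.**  Nondegenerate solutions (in the charts `α b = 1`) of a square system
of bilinear equations are at most the number of exact choice functions. -/
theorem bilinear_bezout (β : I → B) (b1 b2 : J → B) (hb : ∀ j, b1 j ≠ b2 j)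
    (hsq : Fintype.card J + Fintype.card B = Fintype.card I)
    (F : J → MvPolynomial I ℂ)
    (hF : ∀ j, F j ∈ R β ((Pi.single (b1 j) 1 : B → ℕ) + Pi.single (b2 j) 1))
    (α : B → MvPolynomial I ℂ) (hα : ∀ b, α b ∈ R β (Pi.single b 1))
    (P : Finset (I → ℂ))
    (hP0 : ∀ p ∈ P, ∀ j, eval p (F j) = 0)
    (hP1 : ∀ p ∈ P, ∀ b, eval p (α b) = 1)
    (hPJ : ∀ p ∈ P, ∀ v : I → ℂ, (∀ j, ∑ i, eval p (pderiv i (F j)) * v i = 0) →
      (∀ b, ∑ i, eval p (pderiv i (α b)) * v i = 0) → v = 0) :
    P.card ≤ leafCount β b1 b2 Finset.univ b1 := by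
  classical
  let s : J → ℂ := fun j => (((Fintype.equivFin J j : Fin _) : ℕ) : ℂ)
  have hs : Function.Injective s := by
    intro a a' h
    have h1 : ((Fintype.equivFin J a : Fin _) : ℕ) = (Fintype.equivFin J a' : Fin _) := by
      have h' : (((Fintype.equivFin J a : Fin _) : ℕ) : ℂ) = (((Fintype.equivFin J a' : Fin _) : ℕ) : ℂ) := h
      exact_mod_cast h'
    exact (Fintype.equivFin J).injective (Fin.ext h1)
  let G : J → MvPolynomial I ℂ := fun j => form β (b1 j) (s j) * form β (b2 j) (s j)
  let e : J → B → ℕ := fun j => (Pi.single (b1 j) 1 : B → ℕ) + Pi.single (b2 j) 1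
  have hG : ∀ j, G j ∈ R β (e j) := fun j => mul_mem_R (form_mem_R β _ _) (form_mem_R β _ _)
  let e' : J ⊕ B ≃ I := Fintype.equivOfCardEq (by simp [hsq])
  let Fline : ℂ → J → MvPolynomial I ℂ := fun t j => (1 - t) • F j + t • G j
  let Sys : ℂ → I → MvPolynomial I ℂ := fun t i =>
    Sum.elim (Fline t) (fun b => α b - 1) (e'.symm i)
  have hSysl : ∀ t j, Sys t (e' (Sum.inl j)) = Fline t j := fun t j => by simp [Sys]
  have hSysr : ∀ t b, Sys t (e' (Sum.inr b)) = α b - 1 := fun t b => by simp [Sys]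
  have hline0 : ∀ j, Fline 0 j = F j := fun j => by simp [Fline]
  let M : ℕ := P.card + Fintype.card J + 2
  let D : B → ℕ := fun _ => M
  let Dj : J → B → ℕ := fun j b => D b - e j b
  have hDj : ∀ j, Dj j + e j = D := by
    intro j
    funext b
    have h2 : e j b ≤ 2 := by
      simp only [e, Pi.add_apply, Pi.single_apply]; split_ifs <;> omega
    simp only [Pi.add_apply, Dj, D, M]
    omega
  obtain ⟨T, hT⟩ := rank_semicont (mulMap β F Dj) (mulMap β G Dj)
  let t : ℕ → ℂ := fun k => ((k + 1 : ℕ) : ℂ)⁻¹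
  have ht0 : Tendsto t atTop (𝓝 0) := by
    have h1 : Tendsto (fun k : ℕ => ((k + 1 : ℕ) : ℝ)⁻¹) atTop (𝓝 0) :=
      tendsto_inv_atTop_zero.comp (tendsto_natCast_atTop_atTop.comp (tendsto_add_atTop_nat 1))
    have h2 := (Complex.continuous_ofReal.tendsto 0).comp h1
    simp only [Complex.ofReal_zero] at h2
    refine h2.congr fun k => ?_
    simp [t]
  have htinj : Function.Injective t := by
    intro a a' h
    have h1 : ((a + 1 : ℕ) : ℂ) = ((a' + 1 : ℕ) : ℂ) := inv_injective h
    have h2 : a + 1 = a' + 1 := by exact_mod_cast h1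
    omega
  have htT : ∀ᶠ k in atTop, t k ∉ T := by
    have hfin : {k | t k ∈ T}.Finite := by
      have : {k | t k ∈ T} = t ⁻¹' (T : Set ℂ) := rfl
      rw [this]
      exact Set.Finite.preimage htinj.injOn T.finite_toSet
    have := hfin.eventually_cofinite_notMem
    rwa [Nat.cofinite_eq_atTop] at this
  -- support bound
  let S : Finset (I →₀ ℕ) :=
    (Finset.univ.biUnion fun j => (F j).support ∪ (G j).support) ∪
      (Finset.univ.biUnion fun b => (α b - 1).support)
  have hSysSupp : ∀ τ i, (Sys τ i).support ⊆ S := by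
    intro τ i x hx
    obtain ⟨y, rfl⟩ := e'.surjective i
    rcases y with j | b
    · rw [hSysl] at hx
      refine Finset.mem_union_left _ (Finset.mem_biUnion.2 ⟨j, Finset.mem_univ _, ?_⟩)
      by_contra hcon
      rw [Finset.mem_union, not_or, mem_support_iff, mem_support_iff, not_not, not_not] at hcon
      rw [mem_support_iff] at hx
      apply hx
      simp [Fline, coeff_smul, hcon.1, hcon.2]
    · rw [hSysr] at hx
      exact Finset.mem_union_right _ (Finset.mem_biUnion.2 ⟨b, Finset.mem_univ _, hx⟩)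
  have hconv : ∀ i x, Tendsto (fun k => coeff x (Sys (t k) i)) atTop (𝓝 (coeff x (Sys 0 i))) := by
    intro i x
    obtain ⟨y, rfl⟩ := e'.surjective i
    rcases y with j | b
    · simp only [hSysl]
      have hcoe : ∀ τ : ℂ, coeff x (Fline τ j) = (1 - τ) * coeff x (F j) + τ * coeff x (G j) := by
        intro τ; simp [Fline, coeff_smul]
      simp only [hcoe]
      have hc : Continuous fun τ : ℂ => (1 - τ) * coeff x (F j) + τ * coeff x (G j) := by fun_prop
      exact (hc.tendsto 0).comp ht0
    · simp only [hSysr]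
      exact tendsto_const_nhds
  -- the points solve the `t = 0` system nondegenerately
  have hsol : ∀ p ∈ P, ∀ i, eval p (Sys 0 i) = 0 := by
    intro p hp i
    obtain ⟨y, rfl⟩ := e'.surjective i
    rcases y with j | b
    · rw [hSysl, hline0]; exact hP0 p hp j
    · rw [hSysr]; simp [hP1 p hp b]
  have hnd : ∀ p ∈ P, ∀ v : I → ℂ, (∀ i, ∑ j, eval p (pderiv j (Sys 0 i)) * v j = 0) → v = 0 := by
    intro p hp v hv
    refine hPJ p hp v (fun j => ?_) (fun b => ?_)
    · have := hv (e' (Sum.inl j))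
      rwa [hSysl, hline0] at this
    · have := hv (e' (Sum.inr b))
      rw [hSysr] at this
      simpa using this
  -- separation
  obtain ⟨ε, hε, hsep⟩ := exists_pos_le (P.offDiag.image fun x => dist x.1 x.2 / 2) (by
    intro x hx
    obtain ⟨y, hy, rfl⟩ := Finset.mem_image.1 hx
    have := Finset.mem_offDiag.1 hy
    have h3 : 0 < dist y.1 y.2 := dist_pos.2 this.2.2
    positivity)
  have hall : ∀ᶠ k in atTop, ∀ p ∈ P, ∃ pk : I → ℂ, dist pk p < ε ∧ ∀ i, eval pk (Sys (t k) i) = 0 := by
    rw [Filter.eventually_all_finset]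
    intro p hp
    have := persist (Sys 0) (fun k => Sys (t k)) S (hSysSupp 0) (fun k => hSysSupp (t k)) hconv p
      (hsol p hp) (hnd p hp) ε hε
    filter_upwards [this] with k hk
    obtain ⟨pk, h1, h2, -⟩ := hk
    exact ⟨pk, h1, h2⟩
  obtain ⟨k, hk1, hk2⟩ := (htT.and hall).exists
  choose! f hf1 hf2 using hk2
  have hfinj : Set.InjOn f (P : Set (I → ℂ)) := by
    intro a ha b hb' hab
    by_contra hne
    have h1 : dist a b / 2 ∈ P.offDiag.image fun x => dist x.1 x.2 / 2 :=
      Finset.mem_image.2 ⟨(a, b), Finset.mem_offDiag.2 ⟨ha, hb', hne⟩, rfl⟩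
    have h2 := hsep _ h1
    have h3 := hf1 a ha
    have h4 := hf1 b hb'
    have h8 : dist a b ≤ dist (f a) a + dist (f b) b := by
      calc dist a b ≤ dist a (f a) + dist (f a) b := dist_triangle _ _ _
        _ = _ := by rw [dist_comm a, hab]
    linarith
  let P' : Finset (I → ℂ) := P.image f
  have hcardP' : P'.card = P.card := Finset.card_image_of_injOn hfinj
  have hP'0 : ∀ p ∈ P', ∀ j, eval p (Fline (t k) j) = 0 := by
    intro p hp j
    obtain ⟨a, ha, rfl⟩ := Finset.mem_image.1 hp
    have := hf2 a ha (e' (Sum.inl j))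
    rwa [hSysl] at this
  have hP'1 : ∀ p ∈ P', ∀ b, eval p (α b) = 1 := by
    intro p hp b
    obtain ⟨a, ha, rfl⟩ := Finset.mem_image.1 hp
    have := hf2 a ha (e' (Sum.inr b))
    rw [hSysr] at this
    simpa [sub_eq_zero] using this
  have hFline : ∀ j, Fline (t k) j ∈ R β (e j) := fun j =>
    Submodule.add_mem _ (Submodule.smul_mem _ _ (hF j)) (Submodule.smul_mem _ _ (hG j))
  have h1 := card_add_finrank_le β (Fline (t k)) e Dj D hFline hDj α hα P' hP'0 hP'1
    (fun b => by rw [hcardP']; simp only [D, M]; omega)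
  have h2 := finrank_R_le_product β b1 b2 s hs hb hsq D Dj hDj
    (fun b => by simp only [D, M]; omega)
  have h3 := hT (t k) hk1
  have h4 : mulMap β (Fline (t k)) Dj = mulMap β F Dj + t k • (mulMap β G Dj - mulMap β F Dj) :=
    mulMap_line β F G Dj (t k)
  rw [h4, hcardP'] at h1
  have h5 : Module.finrank ℂ (LinearMap.range (mulMap β G Dj)) =
      Module.finrank ℂ (LinearMap.range (mulMap β
        (fun j => form β (b1 j) (s j) * form β (b2 j) (s j)) Dj)) := rfl
  omega

end Crest.Agent.Lib.PolarBezout
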