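import Mathlib

/-!
# Elementary multi-homogeneous Bezout: the algebra part

Variables `I` split into blocks by `β : I → B`.  `R β D` is the space of polynomials of block degree
exactly `D : B → ℕ`.  `Idl g D` is the degree-`D` part of the "ideal" generated by a family of
generators with prescribed degrees, `CodimLe g D b` says that `R β D` is spanned modulo it by at most
`b` elements.
-/

set_option autoImplicit false

open MvPolynomial
open scoped BigOperators

namespace Crest.Agent.Lib.PolarBezout

variable {I B J : Type*} [DecidableEq B]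

/-- The block weight of a variable. -/
def wt (β : I → B) (i : I) : B → ℕ := Pi.single (β i) 1

/-- Polynomials of block degree exactly `D`. -/
noncomputable def R (β : I → B) (D : B → ℕ) : Submodule ℂ (MvPolynomial I ℂ) :=
  weightedHomogeneousSubmodule ℂ (wt β) D

lemma mem_R {β : I → B} {D : B → ℕ} {p : MvPolynomial I ℂ} :
    p ∈ R β D ↔ IsWeightedHomogeneous (wt β) p D := by
  exact mem_weightedHomogeneousSubmodule ℂ (wt β) D p

lemma mul_mem_R {β : I → B} {D D' : B → ℕ} {p q : MvPolynomial I ℂ}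
    (hp : p ∈ R β D) (hq : q ∈ R β D') : p * q ∈ R β (D + D') :=
  mem_R.2 ((mem_R.1 hp).mul (mem_R.1 hq))

lemma X_mem_R (β : I → B) (i : I) : (X i : MvPolynomial I ℂ) ∈ R β (Pi.single (β i) 1) :=
  mem_R.2 (isWeightedHomogeneous_X ℂ (wt β) i)

lemma one_mem_R (β : I → B) : (1 : MvPolynomial I ℂ) ∈ R β 0 :=
  mem_R.2 (isWeightedHomogeneous_one ℂ (wt β))

/-- Block degree of a monomial. -/
lemma weight_wt_apply [Fintype I] (β : I → B) (s : I →₀ ℕ) (b : B) :
    (Finsupp.weight (wt β) s) b = ∑ i ∈ Finset.univ.filter (fun i => β i = b), s i := by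
  classical
  rw [Finsupp.weight_apply, Finsupp.sum_fintype _ _ (by simp)]
  rw [Finset.sum_apply, Finset.sum_filter]
  refine Finset.sum_congr rfl fun i _ => ?_
  simp only [Pi.smul_apply, wt, smul_eq_mul, Pi.single_apply]
  by_cases h : β i = b
  · simp [h]
  · have : b ≠ β i := fun h' => h h'.symm
    simp [h, this]

lemma monomial_mem_R [Fintype I] {β : I → B} {D : B → ℕ} {s : I →₀ ℕ} (c : ℂ)
    (hs : Finsupp.weight (wt β) s = D) : monomial s c ∈ R β D :=
  mem_R.2 (isWeightedHomogeneous_monomial (wt β) s c hs)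

/-- To bound `R β D` it suffices to treat monomials with coefficient one. -/
lemma R_le_of_monomials {β : I → B} {D : B → ℕ} (K : Submodule ℂ (MvPolynomial I ℂ))
    (h : ∀ s : I →₀ ℕ, Finsupp.weight (wt β) s = D → monomial s (1 : ℂ) ∈ K) : R β D ≤ K := by
  intro p hp
  have hp' := mem_R.1 hp
  rw [p.as_sum]
  refine Submodule.sum_mem _ fun s hs => ?_
  have hs' : Finsupp.weight (wt β) s = D := hp' (mem_support_iff.1 hs)
  have := K.smul_mem (coeff s p) (h s hs')
  simpa [smul_monomial] using this

lemma finite_weight_set [Fintype I] (β : I → B) (D : B → ℕ) :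
    {s : I →₀ ℕ | Finsupp.weight (wt β) s = D}.Finite := by
  classical
  -- each coordinate is bounded by `D (β i)`
  have hb : ∀ s : I →₀ ℕ, Finsupp.weight (wt β) s = D → ∀ i, s i ≤ D (β i) := by
    intro s hs i
    rw [← hs, weight_wt_apply]
    exact Finset.single_le_sum (f := fun i => s i) (fun _ _ => Nat.zero_le _)
      (Finset.mem_filter.2 ⟨Finset.mem_univ i, rfl⟩)
  have hfin : (Set.pi Set.univ fun i : I => Set.Iic (D (β i))).Finite :=
    Set.Finite.pi fun _ => Set.finite_Iic _
  refine Set.Finite.of_finite_image (f := fun s : I →₀ ℕ => (s : I → ℕ)) ?_ ?_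
  · refine hfin.subset ?_
    rintro _ ⟨s, hs, rfl⟩
    exact fun i _ => hb s hs i
  · intro a _ b _ h
    exact DFunLike.coe_injective h

instance R_finiteDimensional [Fintype I] (β : I → B) (D : B → ℕ) :
    FiniteDimensional ℂ (R β D) := by
  classical
  have hfin := finite_weight_set β D
  let K : Submodule ℂ (MvPolynomial I ℂ) :=
    Submodule.span ℂ ((fun s => monomial s (1 : ℂ)) '' {s : I →₀ ℕ | Finsupp.weight (wt β) s = D})
  have hK : FiniteDimensional ℂ K := FiniteDimensional.span_of_finite ℂ (hfin.image _)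
  have hle : R β D ≤ K := R_le_of_monomials K fun s hs =>
    Submodule.subset_span ⟨s, hs, rfl⟩
  exact Submodule.finiteDimensional_of_le hle

/-! ### Generators and the truncated ideal -/

/-- The degree-`D` part of the ideal generated by a family of generators with degrees. -/
noncomputable def Idl (β : I → B) (g : J → MvPolynomial I ℂ × (B → ℕ)) (D : B → ℕ) :
    Submodule ℂ (MvPolynomial I ℂ) :=
  Submodule.span ℂ {p | ∃ j, ∃ D' : B → ℕ, ∃ h ∈ R β D', D' + (g j).2 = D ∧ p = (g j).1 * h}

lemma gen_mul_mem_Idl {β : I → B} {g : J → MvPolynomial I ℂ × (B → ℕ)} {D D' : B → ℕ} (j : J)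
    {h : MvPolynomial I ℂ} (hh : h ∈ R β D') (hD : D' + (g j).2 = D) :
    (g j).1 * h ∈ Idl β g D :=
  Submodule.subset_span ⟨j, D', h, hh, hD, rfl⟩

/-- multiplying the ideal part of degree `D'` by a form of degree `e` lands in degree `D' + e`. -/
lemma mul_Idl_mem {β : I → B} {g : J → MvPolynomial I ℂ × (B → ℕ)} {D' e : B → ℕ}
    {u : MvPolynomial I ℂ} (hu : u ∈ R β e) {a : MvPolynomial I ℂ} (ha : a ∈ Idl β g D') :
    u * a ∈ Idl β g (D' + e) := by
  induction ha using Submodule.span_induction with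
  | mem x hx =>
    obtain ⟨j, D'', h, hh, hD, rfl⟩ := hx
    have : u * ((g j).1 * h) = (g j).1 * (h * u) := by ring
    rw [this]
    refine gen_mul_mem_Idl j (mul_mem_R hh hu) ?_
    rw [← hD]; abel
  | zero => simp
  | add x y _ _ hx hy => rw [mul_add]; exact Submodule.add_mem _ hx hy
  | smul c x _ hx =>
    rw [mul_smul_comm]; exact Submodule.smul_mem _ c hx

/-- `R β D` is spanned by at most `b` elements modulo the ideal part. -/
def CodimLe (β : I → B) (g : J → MvPolynomial I ℂ × (B → ℕ)) (D : B → ℕ) (b : ℕ) : Prop :=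
  ∃ W : Submodule ℂ (MvPolynomial I ℂ), FiniteDimensional ℂ W ∧ Module.finrank ℂ W ≤ b ∧
    R β D ≤ Idl β g D ⊔ W

lemma CodimLe.mono {β : I → B} {g : J → MvPolynomial I ℂ × (B → ℕ)} {D : B → ℕ} {b b' : ℕ}
    (h : CodimLe β g D b) (hb : b ≤ b') : CodimLe β g D b' := by
  obtain ⟨W, h1, h2, h3⟩ := h
  exact ⟨W, h1, h2.trans hb, h3⟩

/-- Product rule: if generator `j0` is `u` in `g1`, `v` in `g2` and `u * v` in `g3`, the others being
the same, then the codimensions add. -/
theorem codim_prod {β : I → B} [DecidableEq J] (g1 g2 g3 : J → MvPolynomial I ℂ × (B → ℕ)) (j0 : J)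
    {u v : MvPolynomial I ℂ} {eu ev : B → ℕ} (hu : u ∈ R β eu)
    (h1 : g1 j0 = (u, eu)) (h2 : g2 j0 = (v, ev)) (h3 : g3 j0 = (u * v, eu + ev))
    (h13 : ∀ j, j ≠ j0 → g1 j = g3 j) (h23 : ∀ j, j ≠ j0 → g2 j = g3 j)
    {D D' : B → ℕ} (hD : D' + eu = D) {b1 b2 : ℕ}
    (c1 : CodimLe β g1 D b1) (c2 : CodimLe β g2 D' b2) : CodimLe β g3 D (b1 + b2) := by
  classical
  obtain ⟨W1, fW1, rW1, sW1⟩ := c1
  obtain ⟨W2, fW2, rW2, sW2⟩ := c2
  let W2' := W2.map (LinearMap.mulLeft ℂ u)
  have fW2' : FiniteDimensional ℂ W2' := by infer_instance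
  refine ⟨W1 ⊔ W2', inferInstance, ?_, ?_⟩
  · calc Module.finrank ℂ ↥(W1 ⊔ W2') ≤ Module.finrank ℂ W1 + Module.finrank ℂ W2' :=
          Submodule.finrank_add_le_finrank_add_finrank W1 W2'
      _ ≤ b1 + b2 := by
          refine Nat.add_le_add rW1 ((Submodule.finrank_map_le _ _).trans rW2)
  · -- main inclusion
    have key2 : ∀ h ∈ Idl β g2 D' ⊔ W2, u * h ∈ Idl β g3 D ⊔ W2' := by
      intro h hh
      obtain ⟨x, hx, y, hy, rfl⟩ := Submodule.mem_sup.1 hh
      clear hh
      rw [mul_add]
      refine Submodule.add_mem _ (Submodule.mem_sup_left ?_) (Submodule.mem_sup_right ⟨y, hy, rfl⟩)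
      induction hx using Submodule.span_induction with
      | mem y hy =>
        obtain ⟨j, D'', h', hh', hD'', rfl⟩ := hy
        by_cases hj : j = j0
        · subst hj
          rw [h2] at hD'' ⊢
          simp only at hD'' ⊢
          have : u * (v * h') = (u * v) * h' := by ring
          rw [this]
          have hj3 : (g3 j).1 = u * v := by rw [h3]
          rw [← hj3]
          refine gen_mul_mem_Idl j hh' ?_
          rw [h3]; simp only
          rw [← hD, ← hD'']; abel
        · rw [h23 j hj] at hD'' ⊢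
          have : u * ((g3 j).1 * h') = (g3 j).1 * (h' * u) := by ring
          rw [this]
          refine gen_mul_mem_Idl j (mul_mem_R hh' hu) ?_
          rw [← hD, ← hD'']; abel
      | zero => simp
      | add x y _ _ hx hy => rw [mul_add]; exact Submodule.add_mem _ hx hy
      | smul c x _ hx => rw [mul_smul_comm]; exact Submodule.smul_mem _ c hx
    have key1 : Idl β g1 D ≤ (Idl β g3 D ⊔ W2') := by
      refine Submodule.span_le.2 ?_
      rintro _ ⟨j, D'', h', hh', hD'', rfl⟩
      by_cases hj : j = j0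
      · subst hj
        rw [h1] at hD'' ⊢
        simp only at hD'' ⊢
        have hD''' : D'' = D' := by
          have : D'' + eu = D' + eu := by rw [hD'', hD]
          exact add_right_cancel this
        subst hD'''
        exact key2 h' (sW2 hh')
      · rw [h13 j hj] at hD'' ⊢
        exact Submodule.mem_sup_left (gen_mul_mem_Idl j hh' hD'')
    intro r hr
    have := sW1 hr
    obtain ⟨a, ha, w, hw, rfl⟩ := Submodule.mem_sup.1 this
    have ha' := key1 ha
    obtain ⟨a1, ha1, a2, ha2, rfl⟩ := Submodule.mem_sup.1 ha'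
    refine Submodule.add_mem _ (Submodule.add_mem _ (Submodule.mem_sup_left ha1) ?_) ?_
    · exact Submodule.mem_sup_right (Submodule.mem_sup_right ha2)
    · exact Submodule.mem_sup_right (Submodule.mem_sup_left hw)

end Crest.Agent.Lib.PolarBezout
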