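import Crest.Agent.Lib.PolarBezout.Core

/-!
# Product systems of general position linear forms: counting leaves
-/

set_option autoImplicit false
set_option linter.unusedSectionVars false

open MvPolynomial
open scoped BigOperators

namespace Crest.Agent.Lib.PolarBezout

variable {I B J : Type*} [Fintype I] [DecidableEq I] [Fintype B] [DecidableEq B]

/-- The general position form `∑_{i in block b} s^(position of i) X_i`. -/
noncomputable def form (β : I → B) (b : B) (s : ℂ) : MvPolynomial I ℂ :=
  ∑ i : {i // β i = b}, C (s ^ ((Fintype.equivFin {i // β i = b} i : Fin _) : ℕ)) * X (i : I)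

/-- Size of a block. -/
def bsize (β : I → B) (b : B) : ℕ := Fintype.card {i // β i = b}

lemma form_mem_R (β : I → B) (b : B) (s : ℂ) : form β b s ∈ R β (Pi.single b 1) := by
  refine Submodule.sum_mem _ fun i _ => ?_
  rw [C_mul']
  refine Submodule.smul_mem _ _ ?_
  have h := X_mem_R β (i : I)
  rwa [i.2] at h

lemma X_mem_span_forms (β : I → B) (b : B) (T : Finset ℂ) (hT : bsize β b ≤ T.card)
    (i : I) (hi : β i = b) :
    (X i : MvPolynomial I ℂ) ∈ Submodule.span ℂ ((form β b) '' (T : Set ℂ)) := by
  classical
  unfold bsize at hT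
  obtain ⟨v, hv, hvT⟩ : ∃ v : Fin (Fintype.card {i // β i = b}) → ℂ,
      Function.Injective v ∧ ∀ a, v a ∈ T := by
    let e := T.equivFin
    refine ⟨fun a => (e.symm (Fin.castLE hT a) : ℂ), ?_, ?_⟩
    · intro a a' h
      have := Subtype.ext h
      have h2 := e.symm.injective this
      exact Fin.castLE_injective hT h2
    · intro a
      exact (e.symm (Fin.castLE hT a)).2
  let V := Matrix.vandermonde v
  have hdet : V.det ≠ 0 := Matrix.det_vandermonde_ne_zero_iff.2 hv
  let W := V⁻¹
  have hWV : W * V = 1 := Matrix.nonsing_inv_mul _ (isUnit_iff_ne_zero.2 hdet)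
  let E := Fintype.equivFin {i // β i = b}
  have hform : ∀ a, form β b (v a) =
      ∑ k, C (V a k) * X ((E.symm k : {i // β i = b}) : I) := by
    intro a
    unfold form
    refine Fintype.sum_equiv E _ _ ?_
    intro x
    simp [V, Matrix.vandermonde_apply, E]
  let k0 := E ⟨i, hi⟩
  have hk0 : ((E.symm k0 : {i // β i = b}) : I) = i := by simp [k0]
  have hXi : (X i : MvPolynomial I ℂ) = ∑ a, (W k0 a) • form β b (v a) := by
    have h1 : ∑ a, (W k0 a) • form β b (v a)
        = ∑ k, C ((W * V) k0 k) * X ((E.symm k : {i // β i = b}) : I) := by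
      simp_rw [hform, Finset.smul_sum, Matrix.mul_apply, map_sum, Finset.sum_mul]
      rw [Finset.sum_comm]
      refine Finset.sum_congr rfl fun k _ => Finset.sum_congr rfl fun a _ => ?_
      simp only [C_mul', smul_smul]
    rw [h1, hWV]
    simp only [Matrix.one_apply, apply_ite C, map_one, map_zero, ite_mul, one_mul, zero_mul]
    rw [Finset.sum_ite_eq]
    simp [hk0]
  rw [hXi]
  refine Submodule.sum_mem _ fun a _ => Submodule.smul_mem _ _ ?_
  exact Submodule.subset_span ⟨v a, hvT a, rfl⟩


/-- A monomial of block degree `D` with a variable `X i` in its support factors through `X i`. -/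
lemma monomial_factor {β : I → B} {D : B → ℕ} {s : I →₀ ℕ}
    (hs : Finsupp.weight (wt β) s = D) {i : I} (hi : 1 ≤ s i) :
    ∃ D' : B → ℕ, D' + Pi.single (β i) 1 = D ∧ ∃ m ∈ R β D', monomial s (1 : ℂ) = X i * m := by
  classical
  have hle : Finsupp.single i 1 ≤ s := by
    rw [Finsupp.single_le_iff]; exact hi
  have hadd : (s - Finsupp.single i 1) + Finsupp.single i 1 = s := tsub_add_cancel_of_le hle
  refine ⟨Finsupp.weight (wt β) (s - Finsupp.single i 1), ?_, monomial (s - Finsupp.single i 1) 1,
    monomial_mem_R 1 rfl, ?_⟩
  · rw [← hs]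
    conv_rhs => rw [← hadd]
    rw [map_add]
    congr 1
    simp [Finsupp.weight_apply, Finsupp.sum_single_index, wt]
  · rw [X, monomial_mul]
    congr 1
    · rw [add_comm, hadd]
    · simp

lemma exists_var_of_weight_pos {β : I → B} {D : B → ℕ} {s : I →₀ ℕ}
    (hs : Finsupp.weight (wt β) s = D) {b : B} (hb : 1 ≤ D b) : ∃ i, β i = b ∧ 1 ≤ s i := by
  classical
  rw [← hs, weight_wt_apply] at hb
  by_contra hcon
  push Not at hcon
  have : ∑ i ∈ Finset.univ.filter (fun i => β i = b), s i = 0 := by
    refine Finset.sum_eq_zero fun i hi => ?_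
    have := hcon i (Finset.mem_filter.1 hi).2
    omega
  omega

/-- Leaf with too many forms in one block. -/
theorem codim_zero_leaf (β : I → B) (g : J → MvPolynomial I ℂ × (B → ℕ)) (b : B) (T : Finset ℂ)
    (hT : bsize β b ≤ T.card) (hg : ∀ s ∈ T, ∃ j, g j = (form β b s, Pi.single b 1))
    {D : B → ℕ} (hD : 1 ≤ D b) : CodimLe β g D 0 := by
  classical
  refine ⟨⊥, inferInstance, by simp, ?_⟩
  rw [sup_bot_eq]
  refine R_le_of_monomials _ fun s hs => ?_
  obtain ⟨i, hi, his⟩ := exists_var_of_weight_pos hs hD
  obtain ⟨D', hD', m, hm, hsm⟩ := monomial_factor hs his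
  rw [hsm]
  have hX := X_mem_span_forms β b T hT i hi
  have hle : Submodule.span ℂ ((form β b) '' (T : Set ℂ)) ≤
      (Idl β g D).comap (LinearMap.mulRight ℂ m) := by
    rw [Submodule.span_le]
    rintro _ ⟨s', hs', rfl⟩
    obtain ⟨j, hj⟩ := hg s' hs'
    have := gen_mul_mem_Idl (β := β) (g := g) (D := D) j hm (by rw [hj]; simpa [hi] using hD')
    rw [hj] at this
    exact this
  exact hle hX

/-- The product `∏ b, e b ^ D b`. -/
noncomputable def prodE (e : B → MvPolynomial I ℂ) (D : B → ℕ) : MvPolynomial I ℂ :=
  ∏ b, e b ^ D b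

lemma prodE_mem_R {β : I → B} {e : B → MvPolynomial I ℂ}
    (he : ∀ b, e b ∈ R β (Pi.single b 1)) (D : B → ℕ) : prodE e D ∈ R β D := by
  rw [mem_R]
  have h := IsWeightedHomogeneous.prod (w := wt β) (Finset.univ) (fun b => e b ^ D b)
    (fun b => D b • (Pi.single b 1 : B → ℕ))
    (fun b _ => (mem_R.1 (he b)).pow (D b))
  have hsum : ∑ b, D b • (Pi.single b 1 : B → ℕ) = D := by
    funext b0
    simp [Finset.sum_apply, Pi.single_apply]
  rw [hsum] at h
  exact h

lemma prodE_add_single (e : B → MvPolynomial I ℂ) (D : B → ℕ) (b : B) :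
    prodE e (D + Pi.single b 1) = e b * prodE e D := by
  classical
  unfold prodE
  simp only [Pi.add_apply, pow_add, Finset.prod_mul_distrib]
  rw [mul_comm]
  congr 1
  rw [Finset.prod_eq_single b]
  · simp
  · intro c _ hc
    simp [Pi.single_apply, hc]
  · simp

/-- Leaf with exactly the right number of forms in each block. -/
theorem codim_exact_leaf (β : I → B) (g : J → MvPolynomial I ℂ × (B → ℕ))
    (e : B → MvPolynomial I ℂ) (he : ∀ b, e b ∈ R β (Pi.single b 1))
    (hX : ∀ i, (X i : MvPolynomial I ℂ) ∈ Submodule.span ℂ
      ({p | ∃ j, g j = (p, Pi.single (β i) 1)} ∪ {e (β i)})) (D : B → ℕ) :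
    CodimLe β g D 1 := by
  classical
  refine ⟨Submodule.span ℂ {prodE e D}, inferInstance, ?_, ?_⟩
  · have h := finrank_span_finset_le_card (R := ℂ) ({prodE e D} : Finset _)
    simp only [Finset.coe_singleton, Finset.card_singleton] at h
    exact h
  have main : ∀ n : ℕ, ∀ D : B → ℕ, ∑ b, D b = n →
      R β D ≤ Idl β g D ⊔ Submodule.span ℂ {prodE e D} := by
    intro n
    induction n with
    | zero =>
      intro D hD
      have hD0 : ∀ b, D b = 0 := by
        intro b
        exact (Finset.sum_eq_zero_iff.1 hD) b (Finset.mem_univ b)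
      refine R_le_of_monomials _ fun s hs => ?_
      have hs0 : s = 0 := by
        ext i
        by_contra hne
        have h1 : 1 ≤ s i := Nat.one_le_iff_ne_zero.2 hne
        have h2 : s i ≤ Finsupp.weight (wt β) s (β i) := by
          rw [weight_wt_apply]
          exact Finset.single_le_sum (f := fun i => s i) (fun _ _ => Nat.zero_le _)
            (Finset.mem_filter.2 ⟨Finset.mem_univ i, rfl⟩)
        rw [hs, hD0] at h2
        simp at h2; omega
      refine Submodule.mem_sup_right (Submodule.subset_span ?_)
      rw [hs0]
      simp [prodE, hD0]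
    | succ n ih =>
      intro D hD
      refine R_le_of_monomials _ fun s hs => ?_
      obtain ⟨b, hb⟩ : ∃ b, 1 ≤ D b := by
        by_contra hcon
        push Not at hcon
        have : ∑ b, D b = 0 := Finset.sum_eq_zero fun b _ => by have := hcon b; omega
        omega
      obtain ⟨i, hi, his⟩ := exists_var_of_weight_pos hs hb
      obtain ⟨D', hD', m, hm, hsm⟩ := monomial_factor hs his
      rw [hsm]
      have hsumD' : ∑ b, D' b = n := by
        have : ∑ b, D b = ∑ b, D' b + 1 := by
          rw [← hD']
          simp only [Pi.add_apply, Finset.sum_add_distrib]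
          congr 1
          simp [Pi.single_apply]
        omega
      have hmm := ih D' hsumD' hm
      obtain ⟨a, ha, w, hw, hrw⟩ := Submodule.mem_sup.1 hmm
      rw [← hrw, mul_add]
      refine Submodule.add_mem _ (Submodule.mem_sup_left ?_) ?_
      · have := mul_Idl_mem (X_mem_R β i) ha
        rwa [hD'] at this
      · obtain ⟨c, rfl⟩ := Submodule.mem_span_singleton.1 hw
        rw [mul_smul_comm]
        refine Submodule.smul_mem _ _ ?_
        have hle : Submodule.span ℂ ({p | ∃ j, g j = (p, Pi.single (β i) 1)} ∪ {e (β i)}) ≤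
            (Idl β g D ⊔ Submodule.span ℂ {prodE e D}).comap
              (LinearMap.mulRight ℂ (prodE e D')) := by
          rw [Submodule.span_le]
          rintro p (⟨j, hj⟩ | hp)
          · refine Submodule.mem_sup_left ?_
            have := gen_mul_mem_Idl (β := β) (g := g) (D := D) j (prodE_mem_R he D')
              (by rw [hj]; exact hD')
            rw [hj] at this
            exact this
          · rw [Set.mem_singleton_iff] at hp
            subst hp
            refine Submodule.mem_sup_right (Submodule.subset_span ?_)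
            show e (β i) * prodE e D' = prodE e D
            rw [← hD', prodE_add_single]
        exact hle (hX i)
  exact main _ D rfl

/-! ### The induction over equations -/

variable [Fintype J] [DecidableEq J]

/-- Generators: products on `K`, chosen factors off `K`. -/
noncomputable def gen (β : I → B) (b1 b2 : J → B) (s : J → ℂ) (K : Finset J) (σ : J → B) (j : J) :
    MvPolynomial I ℂ × (B → ℕ) :=
  if j ∈ K then (form β (b1 j) (s j) * form β (b2 j) (s j),
      (Pi.single (b1 j) 1 : B → ℕ) + Pi.single (b2 j) 1)
  else (form β (σ j) (s j), Pi.single (σ j) 1)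

/-- The exact choice functions: `σ` picks exactly `bsize b - 1` equations in block `b`. -/
def Exact (β : I → B) (σ : J → B) : Prop :=
  ∀ b, (Finset.univ.filter fun j => σ j = b).card + 1 = bsize β b

open scoped Classical in
/-- The number of exact leaves below `(K, σ)`. -/
noncomputable def leafCount (β : I → B) (b1 b2 : J → B) (K : Finset J) (σ : J → B) : ℕ :=
  (Finset.univ.filter fun τ : J → B =>
    (∀ j, j ∉ K → τ j = σ j) ∧ (∀ j, j ∈ K → τ j = b1 j ∨ τ j = b2 j) ∧ Exact β τ).card

lemma sum_bsize (β : I → B) : ∑ b, bsize β b = Fintype.card I := by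
  classical
  unfold bsize
  simp_rw [Fintype.card_subtype]
  have := Finset.card_eq_sum_card_fiberwise (s := (Finset.univ : Finset I)) (t := (Finset.univ : Finset B))
    (f := β) (fun _ _ => Finset.mem_univ _)
  simpa using this.symm

lemma sum_fiber (σ : J → B) : ∑ b, (Finset.univ.filter fun j => σ j = b).card = Fintype.card J := by
  classical
  have := Finset.card_eq_sum_card_fiberwise (s := (Finset.univ : Finset J)) (t := (Finset.univ : Finset B))
    (f := σ) (fun _ _ => Finset.mem_univ _)
  simpa using this.symm

lemma exists_big_fiber (β : I → B) (hsq : Fintype.card J + Fintype.card B = Fintype.card I)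
    (σ : J → B) (hσ : ¬ Exact β σ) :
    ∃ b, bsize β b ≤ (Finset.univ.filter fun j => σ j = b).card := by
  classical
  by_contra hcon
  push Not at hcon
  apply hσ
  have hle : ∀ b ∈ (Finset.univ : Finset B),
      (Finset.univ.filter fun j => σ j = b).card + 1 ≤ bsize β b := fun b _ => hcon b
  have hsum : ∑ b, ((Finset.univ.filter fun j => σ j = b).card + 1) = ∑ b, bsize β b := by
    rw [Finset.sum_add_distrib, sum_fiber, sum_bsize]
    simp [hsq]
  intro b
  exact (Finset.sum_eq_sum_iff_of_le hle).1 hsum b (Finset.mem_univ b)

/-- The main bound for the product system. -/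
theorem codim_gen (β : I → B) (b1 b2 : J → B) (s : J → ℂ) (hs : Function.Injective s)
    (hb : ∀ j, b1 j ≠ b2 j) (hsq : Fintype.card J + Fintype.card B = Fintype.card I)
    (K : Finset J) : ∀ (σ : J → B) (D : B → ℕ), (∀ b, K.card + 1 ≤ D b) →
      CodimLe β (gen β b1 b2 s K σ) D (leafCount β b1 b2 K σ) := by
  classical
  induction K using Finset.induction_on with
  | empty =>
    intro σ D hD
    by_cases hσ : Exact β σ
    · -- exact leaf
      have hcount : leafCount β b1 b2 ∅ σ = 1 := by
        unfold leafCount
        rw [Finset.card_eq_one]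
        refine ⟨σ, ?_⟩
        ext τ
        simp only [Finset.mem_filter, Finset.mem_univ, true_and, Finset.mem_singleton]
        constructor
        · rintro ⟨h, -, -⟩
          funext j
          exact h j (by simp)
        · rintro rfl
          refine ⟨fun _ _ => rfl, by simp, hσ⟩
      rw [hcount]
      obtain ⟨z, hz⟩ := Infinite.exists_notMem_finset (Finset.univ.image s)
      refine codim_exact_leaf β _ (fun b => form β b z) (fun b => form_mem_R β b z) ?_ D
      intro i
      let T : Finset ℂ := insert z ((Finset.univ.filter fun j => σ j = β i).image s)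
      have hT : bsize β (β i) ≤ T.card := by
        have hz' : z ∉ (Finset.univ.filter fun j => σ j = β i).image s := by
          intro hmem
          apply hz
          obtain ⟨j, -, rfl⟩ := Finset.mem_image.1 hmem
          exact Finset.mem_image_of_mem _ (Finset.mem_univ j)
        rw [Finset.card_insert_of_notMem hz', Finset.card_image_of_injective _ hs, hσ (β i)]
      refine Submodule.span_mono ?_ (X_mem_span_forms β (β i) T hT i rfl)
      rintro _ ⟨w, hw, rfl⟩
      have hw' := Finset.mem_coe.1 hw
      rcases Finset.mem_insert.1 hw' with rfl | hw2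
      · exact Or.inr rfl
      · obtain ⟨j, hj, rfl⟩ := Finset.mem_image.1 hw2
        have hj' : σ j = β i := (Finset.mem_filter.1 hj).2
        refine Or.inl ⟨j, ?_⟩
        simp [gen, hj']
    · obtain ⟨b, hbig⟩ := exists_big_fiber β hsq σ hσ
      let T : Finset ℂ := (Finset.univ.filter fun j => σ j = b).image s
      have hT : bsize β b ≤ T.card := by
        rw [Finset.card_image_of_injective _ hs]; exact hbig
      have h0 := codim_zero_leaf β (gen β b1 b2 s ∅ σ) b T hT (by
        intro w hw
        obtain ⟨j, hj, rfl⟩ := Finset.mem_image.1 hw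
        have hj' : σ j = b := (Finset.mem_filter.1 hj).2
        refine ⟨j, ?_⟩
        simp [gen, hj']) (D := D) (by have := hD b; simpa using this)
      exact h0.mono (Nat.zero_le _)
  | insert j0 K' hj0 ih =>
    intro σ D hD
    have hcard : (insert j0 K').card = K'.card + 1 := Finset.card_insert_of_notMem hj0
    let σ1 := Function.update σ j0 (b1 j0)
    let σ2 := Function.update σ j0 (b2 j0)
    let u := form β (b1 j0) (s j0)
    let v := form β (b2 j0) (s j0)
    let eu : B → ℕ := Pi.single (b1 j0) 1
    let ev : B → ℕ := Pi.single (b2 j0) 1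
    let D' : B → ℕ := fun b => D b - eu b
    have hDeu : D' + eu = D := by
      funext b
      have h1 := hD b
      have h2 : eu b ≤ 1 := by
        simp only [eu, Pi.single_apply]; split_ifs <;> omega
      simp only [Pi.add_apply, D']
      omega
    have hD1 : ∀ b, K'.card + 1 ≤ D b := fun b => by have := hD b; omega
    have hD2 : ∀ b, K'.card + 1 ≤ D' b := fun b => by
      have h1 := hD b
      have h2 : eu b ≤ 1 := by
        simp only [eu, Pi.single_apply]; split_ifs <;> omega
      simp only [D']
      omega
    have c1 := ih σ1 D hD1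
    have c2 := ih σ2 D' hD2
    have hprod := codim_prod (β := β) (gen β b1 b2 s K' σ1) (gen β b1 b2 s K' σ2)
      (gen β b1 b2 s (insert j0 K') σ) j0 (u := u) (v := v) (eu := eu) (ev := ev)
      (form_mem_R β _ _)
      (by simp [gen, hj0, σ1, u, eu]) (by simp [gen, hj0, σ2, v, ev])
      (by simp [gen, u, v, eu, ev])
      (by
        intro j hj
        by_cases hjK : j ∈ K'
        · simp [gen, hjK]
        · simp [gen, hjK, hj, σ1, Function.update_of_ne hj])
      (by
        intro j hj
        by_cases hjK : j ∈ K'
        · simp [gen, hjK]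
        · simp [gen, hjK, hj, σ2, Function.update_of_ne hj])
      hDeu c1 c2
    refine hprod.mono ?_
    -- counting
    unfold leafCount
    rw [← Finset.card_union_of_disjoint]
    · refine Finset.card_le_card ?_
      intro τ hτ
      simp only [Finset.mem_union, Finset.mem_filter, Finset.mem_univ, true_and] at hτ ⊢
      rcases hτ with ⟨h1, h2, h3⟩ | ⟨h1, h2, h3⟩
      · refine ⟨?_, ?_, h3⟩
        · intro j hj
          have hj1 : j ≠ j0 := fun h => hj (h ▸ Finset.mem_insert_self _ _)
          have hj2 : j ∉ K' := fun h => hj (Finset.mem_insert_of_mem h)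
          rw [h1 j hj2]
          simp [σ1, Function.update_of_ne hj1]
        · intro j hj
          rcases Finset.mem_insert.1 hj with rfl | hj'
          · left
            rw [h1 _ hj0]; simp [σ1]
          · exact h2 j hj'
      · refine ⟨?_, ?_, h3⟩
        · intro j hj
          have hj1 : j ≠ j0 := fun h => hj (h ▸ Finset.mem_insert_self _ _)
          have hj2 : j ∉ K' := fun h => hj (Finset.mem_insert_of_mem h)
          rw [h1 j hj2]
          simp [σ2, Function.update_of_ne hj1]
        · intro j hj
          rcases Finset.mem_insert.1 hj with rfl | hj'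
          · right
            rw [h1 _ hj0]; simp [σ2]
          · exact h2 j hj'
    · rw [Finset.disjoint_left]
      intro τ h1 h2
      simp only [Finset.mem_filter, Finset.mem_univ, true_and] at h1 h2
      have a1 := h1.1 j0 hj0
      have a2 := h2.1 j0 hj0
      simp only [σ1, σ2, Function.update_self] at a1 a2
      exact hb j0 (a1.symm.trans a2)

end Crest.Agent.Lib.PolarBezout
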